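import Vale.Agent.P011UGA.IF3
import Mathlib.FieldTheory.IsSepClosed

/-!
The commutator argument.
-/

set_option autoImplicit false
set_option linter.all false

namespace Vale.Agent.P011UKY

open Matrix Vale.Agent.P011L Vale.Agent.P183CH Vale.Agent.P011U Vale.Agent.P011UC
  Vale.Agent.P011UGA

variable {K : Type} [Field K]

theorem adM_apply {n : ℕ} (X Y : Matrix (Fin n) (Fin n) K) : adM X Y = X * Y - Y * X := rfl

theorem Ad_adM {n : ℕ} (g : GL (Fin n) K) (X Y : Matrix (Fin n) (Fin n) K) :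
    Ad g (adM X Y) = adM (Ad g X) (Ad g Y) := by
  rw [adM_apply, adM_apply, map_sub, Ad_mul', Ad_mul']

theorem Ad_fix {n : ℕ} {g : GL (Fin n) K} {X : Matrix (Fin n) (Fin n) K} :
    Ad g X = X ↔ Commute g.1 X := by
  rw [Ad_apply, Units.mul_inv_eq_iff_eq_mul]
  rfl

variable {D : Chev}

theorem lie_le (J : Set (Fin D.R.r)) : lie D K J ≤ lg D K :=
  Submodule.span_mono (Set.union_subset_union_left _
    fun _ ⟨γ, h1, _, h3⟩ => ⟨γ, h1, fun i hi => absurd (Set.mem_univ i) hi, h3⟩)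

theorem Ad_mm (g h : D.grp K) (X : D.Mat K) : Ad (g * h).1 X = Ad g.1 (Ad h.1 X) := Ad_mul _ _ _

/-- the derived algebra of the Levi subalgebra -/
noncomputable def dr (D : Chev) (K : Type) [Field K] (J : Set (Fin D.R.r)) :
    Submodule K (D.Mat K) := Submodule.span K
  {Y | ∃ l ∈ LJ (GG D K) J, ∃ γ ∈ D.R.Φ, D.R.In J γ ∧ Y = Ad l.1 (ee D K γ)}

variable {J : Set (Fin D.R.r)} {γ : D.R.Q}

theorem dr_le {W : Submodule K (D.Mat K)} (f : Module.End K (D.Mat K))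
    (h : ∀ l ∈ LJ (GG D K) J, ∀ γ ∈ D.R.Φ, D.R.In J γ → f (Ad l.1 (ee D K γ)) ∈ W) :
    ∀ Y ∈ dr D K J, f Y ∈ W :=
  (Submodule.span_le (p := W.comap f)).2 (by rintro _ ⟨l, a, γ, b, c, rfl⟩; exact h l a γ b c)

theorem dr_mem {l : D.grp K} (hl : l ∈ LJ (GG D K) J) (h : γ ∈ D.R.Φ) (h' : D.R.In J γ) :
    Ad l.1 (ee D K γ) ∈ dr D K J := Submodule.subset_span ⟨l, hl, γ, h, h', rfl⟩

theorem dr_ee (h : γ ∈ D.R.Φ) (h' : D.R.In J γ) : ee D K γ ∈ dr D K J := by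
  simpa [Ad_apply] using dr_mem (K := K) (one_mem _) h h'

theorem dr_Ad {l : D.grp K} (hl : l ∈ LJ (GG D K) J) : ∀ Y ∈ dr D K J, Ad l.1 Y ∈ dr D K J :=
  dr_le _ fun _ a _ b c => Ad_mm l _ _ ▸ dr_mem (mul_mem hl a) b c

theorem lie_Ad {l : D.grp K} (hl : l ∈ (GG D K).GJ J) : ∀ Y ∈ lie D K J, Ad l.1 Y ∈ lie D K J :=
  lie_ok D K J GG_ok l hl

theorem LJ_le : LJ (GG D K) J ≤ (GG D K).GJ J := le_sup_left

theorem dr_lie : dr D K J ≤ lie D K J := dr_le LinearMap.id fun _ a _ b c =>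
  lie_Ad (LJ_le a) _ (lie_e (Chev.mem_Φ.1 b) c)

theorem dr_ad {J : Set (Fin D.R.r)}
    (l4 : ∀ γ ∈ D.R.Φ, ∀ W : Submodule K (D.Mat K), (∀ t, ∀ Y ∈ W, Ad ((GG D K).x γ t).1 Y ∈ W) →
      ∀ Y ∈ W, adM (ee D K γ) Y ∈ W)
    (l5 : ∀ i, ∀ γ ∈ D.R.Φ, adM (ct K (D.hm i)) (ee D K γ) = (D.R.pr γ i : K) • ee D K γ)
    {X : D.Mat K} (hX : X ∈ lie D K J) : ∀ Y ∈ dr D K J, adM X Y ∈ dr D K J := by
  have b : ∀ γ ∈ D.R.Φ, D.R.In J γ → ∀ X ∈ lie D K J, adM X (ee D K γ) ∈ dr D K J := by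
    intro γ h1 h2 X hX
    induction hX using Submodule.span_induction with
    | mem x hx =>
      obtain ⟨δ, a, b, rfl⟩ | ⟨i, rfl⟩ := hx
      · exact l4 δ a _ (fun t => dr_Ad (RG.x_mem a b t)) _ (dr_ee h1 h2)
      · rw [l5 i γ h1]
        exact Submodule.smul_mem _ _ (dr_ee h1 h2)
    | zero => simp [adM_apply]
    | add x y _ _ a b =>
      rw [adM_apply, add_mul, mul_add, add_sub_add_comm]
      exact add_mem a b
    | smul c x _ a =>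
      rw [adM_apply, smul_mul_assoc, mul_smul_comm, ← smul_sub]
      exact Submodule.smul_mem _ _ a
  refine dr_le _ fun l a γ h1 h2 => ?_
  have := dr_Ad a _ (b γ h1 h2 _ (lie_Ad (LJ_le (inv_mem a)) X hX))
  rwa [Ad_adM, Subgroup.coe_inv, Ad_inv] at this

theorem dr_T {g : D.grp K} (hg : g ∈ (GG D K).T) {c : D.R.Q → K}
    (h : ∀ γ ∈ D.R.Φ, Ad g.1 (ee D K γ) = c γ • ee D K γ) : ∀ Y ∈ dr D K J, Ad g.1 Y ∈ dr D K J :=
  dr_le _ fun l a γ h1 h2 => by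
    rw [← Ad_mm, ← inv_mul_cancel_right (g * l) g, Ad_mm, h γ h1, map_smul]
    exact Submodule.smul_mem _ _ (dr_mem (GG_ok.nm_T_X _ g hg l a) h1 h2)

theorem dr_fix (l3 : ∀ γ ∈ D.R.Φ, ∀ Z : D.Mat K,
      Commute Z (ee D K γ) ↔ ∀ t, Commute Z ((GG D K).x γ t).1.1) {c : D.grp K}
    (h : ∀ b ∈ LJ (GG D K) J, Commute c b) {Y : D.Mat K} (hY : Y ∈ dr D K J) : Ad c.1 Y = Y := by
  have := dr_le (W := ⊥) (Ad c.1 - 1) (fun l a γ h1 h2 => by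
    rw [Submodule.mem_bot, LinearMap.sub_apply, ← Ad_mm, (h l a).eq, Ad_mm, Ad_fix.2
      ((l3 γ h1 _).2 fun t => congrArg (fun x : D.grp K => x.1.1) (h _ (RG.x_mem h1 h2 t)).eq),
      Module.End.one_apply, sub_self]) Y hY
  rwa [Submodule.mem_bot, LinearMap.sub_apply, sub_eq_zero, Module.End.one_apply] at this

theorem com_mem {G : Type} [Group G] {F N : Subgroup G} (hN : ∀ g ∈ F, ∀ n ∈ N, g * n * g⁻¹ ∈ N)
    {g n δ : G} (hg : g ∈ F) (hn : n ∈ N) (hδ : δ ∈ F) (c : n * g * n⁻¹ * δ = δ * (n * g * n⁻¹)) :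
    (g * δ)⁻¹ * (δ * g) ∈ N := by
  have m : g⁻¹ * n * g⁻¹⁻¹ * n⁻¹ ∈ N := mul_mem (hN _ (inv_mem hg) n hn) (inv_mem hn)
  have := mul_mem (hN _ (inv_mem hδ) _ m) (inv_mem m)
  rwa [show δ⁻¹ * (g⁻¹ * n * g⁻¹⁻¹ * n⁻¹) * δ⁻¹⁻¹ * (g⁻¹ * n * g⁻¹⁻¹ * n⁻¹)⁻¹ = (g * δ)⁻¹ *
    (n * g * n⁻¹ * δ * (n * g * n⁻¹)⁻¹ * g) by group, c, mul_inv_cancel_right] at this

variable {k : Type} [Field k] [Algebra k K] {T : Tw k (D.grp K)}
  {A : (K ≃ₐ[k] K) → D.Mat K → D.Mat K}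

theorem red (hA : Df T A) (hJ : ∀ σ, ∀ M ∈ lie D K J, A σ M ∈ lie D K J) {g g' : D.grp K}
    (hf : g' ∈ T.fix) (h : ∀ X ∈ lie D K J, (∀ σ, A σ X = X) → Ad g'.1 X = X → Ad g.1 X = X) :
    ∀ X ∈ lie D K J, Ad g'.1 X = X → Ad g.1 X = X := fun X hX e =>
  (Submodule.span_le (p := LinearMap.eqLocus (Ad g.1) LinearMap.id)).2
    (fun X a => h X a.1.1 a.2 a.1.2)
    (hA.span (lie D K J ⊓ LinearMap.eqLocus (Ad g'.1) LinearMap.id)
      (inf_le_left.trans (lie_le J)) (fun σ M hM => ⟨hJ σ M hM.1, by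
        have := hA.ad σ g' M (lie_le J hM.1)
        rw [hf σ, show Ad g'.1 M = M from hM.2] at this
        exact this.symm⟩) ⟨hX, e⟩)

theorem key (dif : DIF) (rh : RH) (lka : LKA) (fxl : FXL) : KEY := by
  intro k K _ _ _ _ _ D hD T ε π d o ort hk j hj τ hτ N hN hC n hn
  haveI : CharZero K := charZero_of_injective_algebraMap (algebraMap k K).injective
  haveI := IsSepClosure.sep_closed k (K := K)
  haveI := IsSepClosed.isAlgClosed_of_perfectField K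
  obtain ⟨A, hA, hJ⟩ := dif k K D hD T ε π d o ort
  obtain ⟨-, -, l3, l4, l5, -, -, l8⟩ := lka D hD K
  obtain ⟨f1, f2⟩ := fxl D hD K j
  obtain ⟨-, l8, l9⟩ := l8 τ
  have hT' : hT D K τ ∈ (GG D K).T := GG_ok.hT_mem τ
  have hg : hT D K τ ∈ (GG D K).GJ {i | i ≠ j} := (le_sup_right : _ ≤ (GG D K).GJ _) hT'
  refine red hA (hJ {i | i ≠ j} fun σ i hi e => hi ((π σ).injective (e.trans (hj σ).symm)))
    (mul_mem (mul_mem (hN.1 hn) hτ) (inv_mem (hN.1 hn))) fun X hX hx h => ?_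
  have := rh k K D hD T hk A hA X (lie_le _ hX) hx (dr D K {i | i ≠ j}) (dr_lie.trans (lie_le _))
    (dr_ad l4 l5 hX) (Ad (hT D K τ).1) (dr_T hT' l8) fun δ h1 h2 Y hY => by
      have c1 := hC _ (com_mem hN.2 hτ hn h1 (Subtype.ext (Units.ext (h2 _ (Ad_fix.1 h)))))
        (mul_mem (inv_mem (mul_mem hg (f2 X hX δ h2))) (mul_mem (f2 X hX δ h2) hg))
      rw [← Ad_mm, ← Ad_mm, ← mul_inv_cancel_left (hT D K τ * δ) (δ * hT D K τ),
        Ad_mm (hT D K τ * δ), dr_fix l3 c1 hY]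
  refine l9 X ((f1 _ (sub_mem (lie_Ad hg X hX) hX) fun γ h1 h2 => ?_).1 τ)
  have e := this _ (dr_ee h1 h2)
  rw [Ad_adM, l8 γ h1, map_smul, map_smul] at e
  replace e := smul_right_injective _ (rv τ γ).ne_zero e
  rw [adM_apply, adM_apply] at e
  show _ * _ = _ * _
  rw [sub_mul, mul_sub, sub_eq_sub_iff_sub_eq_sub, e]

end Vale.Agent.P011UKY
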